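import Vale.Agent.P285K.All
import Vale.Agent.P285Z.Ihs
import Vale.Agent.P301.R2.H396.Pencil
import Vale.Agent.P301.R2.H676.Six

/-! P301: every nef line bundle on every compact irreducible holomorphic symplectic Kähler manifold
has a singular metric with semipositive curvature current, zero Lelong numbers and trivial
multiplier ideals. Consequences for isotropic line bundles: nonvanishing in all dimensions, pencils
in dimensions 4 and 6. -/

open scoped Manifold ContDiff ComplexOrder Topology
open Filter MeasureTheory Vale.Agent.P272.K Vale.Agent.P301.H599 Vale.Agent.P301.H99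
open Vale.Agent.P301.H450 Vale.Agent.P301.R2.H396

namespace Vale.Agent.Results.P301.AllKahler

/-- For every `d` there is `K > 0` with the following property. Let `X` be a compact simply
connected complex manifold of dimension `d` with a Kähler metric `w` and a holomorphic symplectic
form `s` generating `H⁰(X, Ω²)`, that is, an irreducible holomorphic symplectic Kähler manifold,
projective or not. Let `L` be a nef line bundle on `X`: for a smooth metric `ρ` on `L` and every
`ε > 0` there is a smooth function `u` with `curvature + ε w + i∂∂̄u ≥ 0`.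

(1) `L` has a singular metric with plurisubharmonic weights `ψ` (a closed positive current in
`c₁(L)`) such that all Lelong numbers of the weights, at all points, are zero, and `exp (-m ψ)` is
integrable over the compact subsets of the charts for every `m > 0`.

Suppose moreover that `L` is isotropic, `∫ c₁(L)^d = 0`. (2) `L^K` has a nonzero section.
(3) If `c₁(L) ≠ 0` and `d = 4`, then `L^(50!)` has two algebraically independent sections without
common divisor and `h⁰(X, L^(50! m)) ≥ m + 1` for all `m`. (4) If `c₁(L) ≠ 0` and `d = 6`, the same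
holds for `L^(357!)` if `L` itself has no nonzero section, or if the class of every line bundle with
a nonzero section is a real multiple of `c₁(L)`. -/
theorem result :
    ∀ d : ℕ, ∃ K : ℕ, 0 < K ∧
      ∀ (X : Type) [TopologicalSpace X] [T2Space X] [CompactSpace X] [SimplyConnectedSpace X]
        [ChartedSpace (Cm d) X] [IsManifold 𝓘(ℂ, Cm d) ω X]
        (w s : Chart d X → Cm d → Matrix (Fin d) (Fin d) ℂ), IsSymplectic d X w s →
        ∀ (ι : Type) (L : LineBundle d X ι) (ρ : ι → X → ℝ), IsMetric L ρ →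
        (∀ ε : ℝ, 0 < ε → ∃ u : X → ℝ, Smooth (d := d) u ∧ ∀ e x, At e x →
          (curvature L ρ e (e x) + (ε : ℂ) • w e (e x) + ddc u e (e x)).PosSemidef) →
        (∃ ψ : ι → X → EReal, IsPshMetric L ψ ∧
          (∀ i (e : Chart d X) x, At e x → x ∈ L.U i →
            lelong (fun z => ψ i (e.symm z)) (e x) = 0) ∧
          ∀ (m : ℝ) i (e : Chart d X) (C : Set (Cm d)), 0 < m → e ∈ atlas (Cm d) X →
            IsCompact C → C ⊆ e.target ∩ e.symm ⁻¹' L.U i →
            ∫⁻ z in C, EReal.exp (-((m : EReal) * ψ i (e.symm z))) < ⊤) ∧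
        (IsIntegral (fun (e : Chart d X) z => (curvature L ρ e z).det.re) 0 →
          (∃ f : ι → X → ℂ, Sec L K f ∧ ∃ i x, x ∈ L.U i ∧ f i x ≠ 0) ∧
          (¬ SameClass (curvature L ρ) (fun _ _ => 0) →
            (d = 4 → HasPencil L (Nat.factorial 50) ∧ HasGrowth L (Nat.factorial 50)) ∧
            (d = 6 → (¬ ∃ f : ι → X → ℂ, Sec L 1 f ∧ ∃ i x, x ∈ L.U i ∧ f i x ≠ 0) ∨
              OnlyMultiples L ρ →
              HasPencil L (Nat.factorial 357) ∧ HasGrowth L (Nat.factorial 357)))) := by
  intro d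
  refine ⟨(Mb d).factorial, Nat.factorial_pos _, ?_⟩
  intro X _ _ _ _ _ _ w s hs ι L ρ hρ hn
  obtain ⟨h, hh, hk⟩ := Vale.Agent.P285Z.ihs d X w s hs
  have hz : Vale.Agent.P285Z.ZL L := by
    refine Vale.Agent.P285K.zk d X w hs.kahler ι L ρ hρ hn 0 h le_rfl hh fun e x hx => ?_
    have h1 := hk e x hx
    show (((0 : ℝ) : ℂ) • curvature L ρ e (e x) + ddc h e (e x) -
      Vale.Agent.P285Z.kc w e (e x)).PosSemidef
    rw [h1, Complex.ofReal_zero, zero_smul, zero_add, sub_self]
    exact Matrix.PosSemidef.zero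
  refine ⟨hz, fun h0 => ?_⟩
  obtain ⟨ψ, hψ, hl, -⟩ := hz
  have hZ : ZeroLelong w L ρ := ⟨hn, h0, ψ, hψ, hl⟩
  refine ⟨?_, fun hne => ⟨?_, ?_⟩⟩
  · obtain ⟨f, h1, h2, h3⟩ := IsPair.hasSec ⟨w, s, ρ, hs, hρ, Or.inr hZ⟩
    exact ⟨f, ⟨h1, h2⟩, h3⟩
  · rintro rfl
    have h1 := hasPencil_of_mobile (IsPairNZ.hasMobilePair ⟨w, s, ρ, hs, hρ, Or.inr hZ, hne⟩)
    exact ⟨h1, h1.growth⟩
  · rintro rfl (h1 | h1)
    · rcases Vale.Agent.P301.R2.H676.pair_six ⟨w, s, ρ, hs, hρ, Or.inr hZ, hne⟩ with h2 | ⟨f, hf, hf0⟩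
      · exact ⟨hasPencil_of_mobile h2, (hasPencil_of_mobile h2).growth⟩
      · exact absurd ⟨f, ⟨hf.holo, hf.change⟩, hf0⟩ h1
    · have h2 := hasPencil_of_mobile
        (IsPairOnly.hasMobilePair ⟨w, s, ρ, hs, hρ, Or.inr hZ, hne, h1⟩)
      exact ⟨h2, h2.growth⟩

end Vale.Agent.Results.P301.AllKahler
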