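import Vale.Agent.P285Z.XMain

/-! P301: extension of sections of nef line bundles on projective holomorphic symplectic
manifolds. -/

open scoped Manifold ContDiff ComplexOrder Topology
open Vale.Agent.P272.K Vale.Agent.P285.H281.FD Vale.Agent.P285Z.St
open Vale.Agent.P301.H599 (IsSymplectic)
open Vale.Agent.P285Z (xS)
open Vale.Agent.P285Z.Br

namespace Vale.Agent.Results.P301.DivisorExtension

/-- Let `X` be a connected projective manifold with a Kähler metric `w` and a holomorphic
symplectic form `s` generating `H⁰(X, Ω²)`, `L` a nef line bundle, `u` a nonzero section of `a L`,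
`a ≥ 1`, `D` the scheme `u = 0`. Then `H⁰(X, m L) → H⁰(D, m L)` is surjective for all `m > a`. If
`L` restricted to `D` is semiample, then `L` is semiample. -/
theorem result (n : ℕ) (X : Type) [TopologicalSpace X] [ChartedSpace (Cm n) X]
    [IsManifold 𝓘(ℂ, Cm n) ω X] [T2Space X] [CompactSpace X] [ConnectedSpace X]
    (w s : Chart n X → Cm n → Matrix (Fin n) (Fin n) ℂ) (hs : IsSymplectic n X w s)
    (hP : Projective n X) (L : Bd X) (hL : IsLB n L) (hn : Nef w L)
    (a : ℕ) (u : L.ι → X → ℂ) (ha : 1 ≤ a) (hu : Divisor n (L.pow a) u) :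
    (∀ m : ℕ, a < m → Extends n (L.pow m) (L.pow a) u) ∧
      (SemiampleOn n L (L.pow a) u → Semiample n L) := by
  obtain ⟨h, hh, hk⟩ := Vale.Agent.P285Z.ihs n X w s hs
  have hw := hs.kahler
  obtain ⟨x₀⟩ : Nonempty X := inferInstance
  have hT : Divisor n (triv X) fun _ _ => 1 :=
    ⟨same_triv.isLB, same_triv.sec.1 Vale.Agent.P285Z.isSection_one, (), x₀, Set.mem_univ _,
      one_ne_zero⟩
  have hK : Klt n 1 (triv X) fun _ _ => 1 := by
    refine ⟨2, by norm_num, fun i e x _ _ => ⟨Metric.ball (e x) 1, Metric.ball_mem_nhds _ one_pos, ?_⟩⟩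
    simp only [norm_one, Real.one_rpow]
    exact MeasureTheory.integrableOn_const MeasureTheory.measure_ball_lt_top.ne
  obtain ⟨ρ, hρ⟩ := Vale.Agent.P301.H450.exists_metric (toLB L hL)
  have hA : AdjointOf n 0 L (triv X) (triv X) 1 := by
    refine mk_adj (same_toLB L hL) same_triv same_triv hw.toIsHermitian hρ
      (Vale.Agent.P285Z.isMetric_trivB hh)
      (Vale.Agent.P285Z.isMetric_trivB (h := fun _ => 0) (Vale.Agent.P301.H599.Smooth.const 0))
      fun e x hx => ?_
    have h1 := hk e x hx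
    have h2 := Vale.Agent.P301.H599.ddc_const (d := n) (X := X) 0 e x hx
    simp only [] at h2
    show (((0 : ℝ) : ℂ) • Vale.Agent.P301.H599.curvature (toLB L hL) ρ e (e x) +
      Vale.Agent.P301.H599.ddc h e (e x) - Vale.Agent.P285Z.kc w e (e x) -
      ((1 / ((1 : ℕ) : ℝ) : ℝ) : ℂ) • Vale.Agent.P301.H599.ddc (fun _ => (0 : ℝ)) e (e x)).PosSemidef
    rw [h1, h2]
    simpa using Matrix.PosSemidef.zero
  have h1 := kollar xS hw hP hL hn hT le_rfl hK le_rfl hA ha hu
  refine ⟨fun m hm => h1.1 m ?_, h1.2⟩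
  rw [add_zero]
  exact_mod_cast hm

end Vale.Agent.Results.P301.DivisorExtension
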